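import Vale.Agent.P011UT4.Defs
import Vale.Agent.P011UC.Lie
import Vale.Agent.P011UX.Cur
import Vale.Agent.P011UH.Cl
import Vale.Agent.P011UB.Root

/-!
The Lie algebra of a Chevalley group in characteristic zero: simplicity, exponentials, the kernel
of the adjoint representation.
-/

set_option autoImplicit false
set_option linter.all false

namespace Vale.Agent.P011UT5

open Matrix Finset Vale.Agent.P011L Vale.Agent.P183CH Vale.Agent.P183CH.Chev Vale.Agent.P011U
  Vale.Agent.P011UT4 Vale.Agent.P011UC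

attribute [local instance 100] LieRing.ofAssociativeRing

section

variable {n : ℕ} {E : ℕ → Matrix (Fin n) (Fin n) ℤ} {k : Type} [CommRing k]

/-- the coefficients of the adjoint action -/
def adq (E : ℕ → Matrix (Fin n) (Fin n) ℤ) (Y : Matrix (Fin n) (Fin n) k) (m : ℕ) :
    Matrix (Fin n) (Fin n) k :=
  ∑ a ∈ range (m + 1), (-1 : k) ^ (m - a) • (ct k (E a) * Y * ct k (E (m - a)))

theorem adq_one (h : DP E) (Y : Matrix (Fin n) (Fin n) k) : adq E Y 1 = ⁅ct k (E 1), Y⁆ := by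
  simp [adq, h.zero, sum_range_succ, Ring.lie_def, sub_eq_neg_add]

theorem ad_exq (h : DP E) (t : k) (Y : Matrix (Fin n) (Fin n) k) :
    Ad (h.exU t) Y = ∑ m ∈ range (n + n), t ^ m • adq E Y m := by
  have e : ∀ m ∈ range (n + n), t ^ m • adq E Y m = ∑ a ∈ range (m + 1),
      t ^ a • ct k (E a) * Y * (-t) ^ (m - a) • ct k (E (m - a)) := fun m _ => by
    rw [adq, smul_sum]
    refine sum_congr rfl fun a ha => ?_
    rw [smul_mul_assoc, smul_mul_smul_comm, smul_smul, neg_pow t, mul_left_comm, ← pow_add,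
      Nat.add_sub_of_le (mem_range_succ_iff.1 ha), mul_comm]
  rw [sum_congr rfl e, sum_range_diag_flip (n + n) fun a b =>
    t ^ a • ct k (E a) * Y * (-t) ^ b • ct k (E b), Ad_apply]
  show ex E t * _ * ex E (-t) = _
  rw [ex, ex, sum_mul, sum_mul_sum]
  refine (sum_congr rfl fun a ha => sum_subset (range_mono ?_) fun b _ hb => ?_).trans
    (sum_subset (range_mono (Nat.le_add_left _ _)) fun a _ ha => ?_)
  · rw [mem_range] at ha; omega
  · rw [h.van (m := b) (by simpa using hb)]; simp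
  · rw [h.van (m := a) (by simpa using ha)]; simp

end

variable {D : Chev} {K : Type} [Field K]

/-- A space which is stable under the group is stable under the root vectors. -/
theorem ad_rt [Infinite K] {W : Submodule K (D.Mat K)}
    (h : ∀ g : D.grp K, ∀ Y ∈ W, Ad g.1 Y ∈ W) {γ : D.Q} (r : D.IsRt γ) {Y : D.Mat K}
    (hY : Y ∈ W) : ⁅ct K (D.EE γ 1), Y⁆ ∈ W := by
  rcases Nat.eq_zero_or_pos D.n with e | e
  · rw [r.rh.dp.van (m := 1) (by omega), map_zero, zero_lie]
    exact zero_mem _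
  rw [← adq_one r.rh.dp]
  exact coef_mem W (D.n + D.n) (adq (D.EE γ) Y)
    (fun t => ad_exq r.rh.dp t Y ▸ h ⟨_, r.rh.x K t⟩ Y hY) (by omega)

/-- A space which is stable under the root vectors is stable under the Lie algebra. -/
theorem ad_gg {W : Submodule K (D.Mat K)}
    (h : ∀ γ, D.IsRt γ → ∀ Y ∈ W, ⁅ct K (D.EE γ 1), Y⁆ ∈ W) {X : D.Mat K} (hX : X ∈ gg D K) :
    ∀ Y ∈ W, ⁅X, Y⁆ ∈ W := by
  induction hX using Submodule.span_induction with
  | mem x hx =>
    obtain ⟨γ, hγ, -, rfl⟩ | ⟨i, rfl⟩ := hx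
    · exact h γ (mem_Φ.1 hγ)
    · intro Y hY
      have a := h _ (rt_simple i).1.rt
      have b := h _ (rt_simple i).2.1.rt
      rw [EE_e] at a
      rw [EE_f] at b
      rw [← ef, ct_lie, lie_lie]
      exact sub_mem (a _ (b _ hY)) (b _ (a _ hY))
  | zero => exact fun Y _ => by rw [zero_lie]; exact zero_mem _
  | add x y _ _ a b => exact fun Y hY => by rw [add_lie]; exact add_mem (a Y hY) (b Y hY)
  | smul c x _ a => exact fun Y hY => by rw [smul_lie]; exact W.smul_mem _ (a Y hY)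

theorem gg_e {γ : D.Q} (r : D.IsRt γ) : ct K (D.EE γ 1) ∈ gg D K :=
  lie_e r fun i hi => absurd (Set.mem_univ i) hi

theorem Ad_gg (g : D.grp K) : ∀ Y ∈ gg D K, Ad g.1 Y ∈ gg D K :=
  lie_ok D K _ GG_ok g ((GG_ok (D := D) (k := K)).GJ_univ (R_ok D) ▸ Subgroup.mem_top g)

theorem lie_gg [Infinite K] {X Y : D.Mat K} (hX : X ∈ gg D K) (hY : Y ∈ gg D K) :
    ⁅X, Y⁆ ∈ gg D K := ad_gg (fun _ r _ h => ad_rt Ad_gg r h) hX Y hY

theorem simp_C {W : Submodule ℂ (D.Mat ℂ)} (hW : W ≤ D.g)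
    (h : ∀ γ, D.IsRt γ → ∀ Y ∈ W, ⁅ct ℂ (D.EE γ 1), Y⁆ ∈ W) : W = ⊥ ∨ D.g ≤ W := by
  letI := D.lr
  letI := D.la
  have key : ∀ x : D.L, ∀ Y ∈ W, ⁅D.φ x, Y⁆ ∈ W := fun x => by
    have hx : x ∈ LieSubalgebra.lieSpan ℂ D.L (Set.range D.b.e ∪ Set.range D.b.f) := by
      rw [D.b.span_ef]; trivial
    induction hx using LieSubalgebra.lieSpan_induction with
    | mem u hu =>
      obtain ⟨i, rfl⟩ | ⟨i, rfl⟩ := hu
      · rw [φ_e, ← EE_e]; exact h _ (rt_simple i).1.rt
      · rw [φ_f, ← EE_f]; exact h _ (rt_simple i).2.1.rt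
    | zero => exact fun Y _ => by rw [map_zero, zero_lie]; exact zero_mem _
    | add x y _ _ a b =>
      exact fun Y hY => by rw [map_add, add_lie]; exact add_mem (a Y hY) (b Y hY)
    | smul c x _ a => exact fun Y hY => by rw [map_smul, smul_lie]; exact W.smul_mem _ (a Y hY)
    | lie x y _ _ a b =>
      exact fun Y hY => by rw [φ_lie, lie_lie]; exact sub_mem (a _ (b _ hY)) (b _ (a _ hY))
  let I : LieIdeal ℂ D.L :=
    { W.comap D.φ with
      lie_mem := fun {x m} hm => show D.φ ⁅x, m⁆ ∈ W from φ_lie x m ▸ key x _ hm }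
  have hI : ∀ x, x ∈ I ↔ D.φ x ∈ W := fun _ => Iff.rfl
  rcases D.simple.eq_bot_or_eq_top I with e | e
  · refine Or.inl ((Submodule.eq_bot_iff _).2 fun Y hY => ?_)
    obtain ⟨x, rfl⟩ := hW hY
    have := (hI x).2 hY
    rw [e, LieSubmodule.mem_bot] at this
    rw [this, map_zero]
  · refine Or.inr ?_
    rintro _ ⟨x, rfl⟩
    exact (hI x).1 (e ▸ trivial)

theorem gg_map {F : Type} [Field F] (f : K →+* F) {X : D.Mat K} (hX : X ∈ gg D K) :
    X.map f ∈ gg D F := by
  induction hX using Submodule.span_induction with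
  | mem x hx =>
    obtain ⟨γ, hγ, -, rfl⟩ | ⟨i, rfl⟩ := hx
    · rw [map_ct]; exact gg_e (mem_Φ.1 hγ)
    · rw [map_ct]; exact lie_h i
  | zero => rw [Matrix.map_zero _ (map_zero f)]; exact zero_mem _
  | add x y _ _ a b => rw [Matrix.map_add _ (map_add f)]; exact add_mem a b
  | smul c x _ a =>
    rw [show (c • x).map f = f c • x.map f from Matrix.ext fun a b => map_mul f _ _]
    exact Submodule.smul_mem _ _ a

theorem gg_le : gg D ℂ ≤ D.g := Submodule.span_le.2 (by
  rintro _ (⟨γ, hγ, -, rfl⟩ | ⟨i, rfl⟩)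
  · exact (mem_Φ.1 hγ).rh.g
  · exact hm_g i)

/-- descent of membership along a field extension -/
theorem retr {F : Type} [Field F] (f : K →+* F) (W : Submodule K (D.Mat K)) {X : D.Mat K}
    (h : X.map f ∈ Submodule.span F ((fun Y : D.Mat K => Y.map f) '' W)) : X ∈ W := by
  letI := f.toAlgebra
  obtain ⟨r, h0⟩ := (Algebra.linearMap K F).exists_leftInverse_of_injective
    (LinearMap.ker_eq_bot.2 f.injective)
  have hr : ∀ c x, r (c * f x) = r c * x := fun c x => by
    rw [mul_comm, mul_comm (r c), ← smul_eq_mul x, ← map_smul]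
    rfl
  have h1 : r 1 = 1 := by simpa using LinearMap.congr_fun h0 1
  have key : ∀ Z ∈ Submodule.span F ((fun Y : D.Mat K => Y.map f) '' W), ∀ c : F,
      (c • Z).map r ∈ W := fun Z hZ => by
    induction hZ using Submodule.span_induction with
    | mem x hx =>
      obtain ⟨Y, hY, rfl⟩ := hx
      intro c
      rw [show (c • Y.map f).map r = r c • Y from Matrix.ext fun a b => hr c _]
      exact W.smul_mem _ hY
    | zero => exact fun c => by rw [smul_zero, Matrix.map_zero _ (map_zero r)]; exact zero_mem _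
    | add x y _ _ a b =>
      exact fun c => by rw [smul_add, Matrix.map_add _ (map_add r)]; exact add_mem (a c) (b c)
    | smul d x _ a => exact fun c => by rw [smul_smul]; exact a _
  have := key _ h 1
  rwa [show ((1 : F) • X.map f).map r = X from Matrix.ext fun a b =>
    (hr 1 _).trans (by rw [h1, one_mul])] at this

theorem simp_K (f : K →+* ℂ) {W : Submodule K (D.Mat K)} (hW : W ≤ gg D K)
    (h : ∀ γ, D.IsRt γ → ∀ Y ∈ W, ⁅ct K (D.EE γ 1), Y⁆ ∈ W) : W = ⊥ ∨ W = gg D K := by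
  refine (simp_C (W := Submodule.span ℂ ((fun Y : D.Mat K => Y.map f) '' W))
    (Submodule.span_le.2 ?_) fun γ r Z hZ => ?_).imp (fun e => ?_) fun e => ?_
  · rintro _ ⟨Y, hY, rfl⟩
    exact gg_le (gg_map f (hW hY))
  · induction hZ using Submodule.span_induction with
    | mem x hx =>
      obtain ⟨Y, hY, rfl⟩ := hx
      refine Submodule.subset_span ⟨_, h γ r Y hY, ?_⟩
      rw [← map_ct f, Ring.lie_def, Ring.lie_def]
      exact (map_sub f.mapMatrix _ _).trans (by rw [map_mul, map_mul]; rfl)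
    | zero => rw [lie_zero]; exact zero_mem _
    | add x y _ _ a b => rw [lie_add]; exact add_mem a b
    | smul c x _ a => rw [lie_smul]; exact Submodule.smul_mem _ _ a
  · refine (Submodule.eq_bot_iff _).2 fun Y hY => ?_
    have := (Submodule.eq_bot_iff _).1 e _ (Submodule.subset_span ⟨Y, hY, rfl⟩)
    exact Matrix.ext fun a b => f.injective ((congrFun (congrFun this a) b).trans (map_zero f).symm)
  · exact le_antisymm hW fun X hX => retr f W (e (gg_le (gg_map f hX)))

theorem irr : IRR := fun D K _ ⟨f⟩ => by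
  haveI : CharZero K := f.charZero
  refine ⟨fun X hX Y hY => lie_gg hX hY, fun W hW h => simp_K f hW fun γ r Y hY => ?_⟩
  rcases h with h | h
  · exact h _ (gg_e r) Y hY
  · exact ad_rt h r hY

/-! ### The exponential -/

section

open Polynomial P011UX

variable [CharZero K]

theorem ex_der {n : ℕ} {E : ℕ → Matrix (Fin n) (Fin n) ℤ} (h : DP E) :
    ((ex E (X : K[X])).map derivative).map (aeval (0 : K) : K[X] →ₐ[K] K) = ct K (E 1) := by
  ext a b
  have e : ∀ m, aeval (0 : K) (derivative (X ^ m * ((E m a b : ℤ) : K[X]))) =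
      if m = 1 then (E 1 a b : K) else 0 := fun m => by
    rw [← coeff_zero_eq_aeval_zero, coeff_derivative, ← C_eq_intCast, coeff_mul_C, coeff_X_pow]
    split_ifs with e e' e'
    · simp [e']
    · exact absurd e.symm e'
    · exact absurd e'.symm e
    · simp
  simp only [ex, map_apply, Matrix.sum_apply, Matrix.smul_apply, smul_eq_mul, map_sum,
    RingHom.mapMatrix_apply, eq_intCast, e, sum_ite_eq', mem_range]
  split_ifs with c
  · rfl
  · rw [h.van (m := 1) (by omega)]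
    simp

theorem Ad_LE (y : D.grp K) {γ : D.Q} (r : D.IsRt γ) :
    Ad y.1 (ct K (D.EE γ 1)) ∈ P011UX.LE (D.grp K) := by
  have e : ∀ s : K, (y.1.1.map C * ex (D.EE γ) X * y.1⁻¹.1.map C).map
      (aeval s : K[X] →ₐ[K] K) = y.1.1 * ex (D.EE γ) s * y.1⁻¹.1 := fun s => by
    rw [mm, mm, P011UX.map_C, P011UX.map_C]
    exact congrArg (y.1.1 * · * y.1⁻¹.1)
      ((map_ex (aeval s : K[X] →ₐ[K] K).toRingHom _ _).trans (congrArg _ (aeval_X s)))
  refine tan (Γ := y.1.1.map C * ex (D.EE γ) X * y.1⁻¹.1.map C) (fun s =>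
    ⟨y.1 * r.rh.dp.exU s * y.1⁻¹, mul_mem (mul_mem y.2 (r.rh.x K s)) (inv_mem y.2), (e s).symm⟩) 0 ?_
  have h2 : ∀ (A B : D.Mat K) (Γ : D.Mat K[X]),
      (A.map C * Γ * B.map C).map derivative = A.map C * Γ.map derivative * B.map C :=
    fun A B Γ => by
      ext1 a b
      simp [mul_apply]
  rw [h2, mm, mm, P011UX.map_C, P011UX.map_C, ex_der r.rh.dp, e, r.rh.dp.ex_zero, mul_one,
    Units.mul_inv, one_mul, Ad_apply]

theorem gg_LE : gg D K ≤ P011UX.LE (D.grp K) := by
  let W : Submodule K (D.Mat K) :=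
    Submodule.span K {M | ∃ y : D.grp K, ∃ γ, D.IsRt γ ∧ M = Ad y.1 (ct K (D.EE γ 1))}
  have h1 : ∀ g : D.grp K, ∀ Y ∈ W, Ad g.1 Y ∈ W := fun g =>
    (Submodule.span_le (p := W.comap (Ad g.1))).2 (by
      rintro _ ⟨y, γ, r, rfl⟩
      exact Submodule.subset_span ⟨g * y, γ, r, (Ad_mul _ _ _).symm⟩)
  have h2 : ∀ γ, D.IsRt γ → ct K (D.EE γ 1) ∈ W := fun γ r =>
    Submodule.subset_span ⟨1, γ, r, by simp [Ad_apply]⟩
  refine le_trans (b := W) (Submodule.span_le.2 ?_) (Submodule.span_le.2 ?_)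
  · rintro _ (⟨γ, hγ, -, rfl⟩ | ⟨i, rfl⟩)
    · exact h2 γ (mem_Φ.1 hγ)
    · rw [← ef, ct_lie, ← EE_e, ← EE_f]
      exact ad_rt h1 (rt_simple i).1.rt (h2 _ (rt_simple i).2.1.rt)
  · rintro _ ⟨y, γ, r, rfl⟩
    exact Ad_LE y r

/-- The exponential of a nilpotent element of the Lie algebra of a group is a zero of the ideal of
the group. -/
theorem exp_van {J : Type} [Fintype J] [DecidableEq J] {G : Subgroup (GL J K)} {Y : Matrix J J K}
    (hY : Y ∈ P011UX.LE G) (hn : IsNilpotent Y) (p : MvPolynomial (J × J) K) (hp : Van K G p) :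
    P011UX.ev (IsNilpotent.exp Y) p = 0 := by
  obtain ⟨N, hN⟩ := hn
  let Γ : Matrix J J K[X] :=
    ∑ i ∈ range (N + 1), (C (i.factorial : K)⁻¹ * X ^ i) • (Y ^ i).map C
  have e : ∀ s : K, Γ.map (aeval s : K[X] →ₐ[K] K) =
      ∑ i ∈ range (N + 1), ((i.factorial : K)⁻¹ * s ^ i) • Y ^ i := fun s => by
    ext a b
    simp only [Γ, map_apply, Matrix.sum_apply, Matrix.smul_apply, smul_eq_mul, map_sum, map_mul,
      aeval_C, map_pow, aeval_X, Algebra.algebraMap_self_apply]
  have h1 : Γ.map derivative = Γ * Y.map C := by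
    have a1 : Γ.map derivative = ∑ i ∈ range (N + 1),
        derivative (C (i.factorial : K)⁻¹ * X ^ i) • (Y ^ i).map C := by
      ext1 a b
      simp only [Γ, map_apply, Matrix.sum_apply, Matrix.smul_apply, smul_eq_mul, map_sum]
      exact sum_congr rfl fun i _ => by rw [derivative_mul, derivative_C, mul_zero, add_zero]
    rw [a1, sum_range_succ', sum_mul, sum_range_succ, smul_mul_assoc, ← Matrix.map_mul,
      ← pow_succ, pow_succ', hN, mul_zero, Matrix.map_zero _ (map_zero C), smul_zero, pow_zero,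
      mul_one, derivative_C, zero_smul]
    refine congrArg (· + 0) (sum_congr rfl fun i _ => ?_)
    rw [smul_mul_assoc, ← Matrix.map_mul, ← pow_succ, derivative_C_mul, derivative_X_pow,
      ← mul_assoc, ← C_mul, Nat.factorial_succ, Nat.cast_mul, mul_inv, mul_right_comm,
      inv_mul_cancel₀ (Nat.cast_ne_zero.2 i.succ_ne_zero), one_mul, Nat.add_sub_cancel]
  have h2 := cur0 (E := G) h1 (fun s => by rwa [P011UX.map_C]) (fun p hp => by
    rw [e, sum_range_succ']
    simpa using hp 1 (one_mem _)) p hp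
  have h3 := congrArg (aeval (1 : K) : K[X] →ₐ[K] K) h2
  rw [map_ev, e, map_zero] at h3
  rw [IsNilpotent.exp_eq_sum (k := N + 1) (by rw [pow_succ', hN, mul_zero]), ← h3]
  congr 2
  refine sum_congr rfl fun i _ => ?_
  rw [← Rat.cast_smul_eq_qsmul K]
  simp

end

theorem exp : EXP := fun D hD K _ _ X hX hn =>
  P011UH.Zc.mem hD fun p hp => exp_van (gg_LE hX) hn p fun g hg => hp ⟨g, hg⟩

/-! ### The kernel of the adjoint representation -/

theorem comm_ex [CharZero K] {n : ℕ} {E : ℕ → Matrix (Fin n) (Fin n) ℤ} (h : DP E)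
    {z : Matrix (Fin n) (Fin n) K} (hz : Commute z (ct K (E 1))) (t : K) : Commute z (ex E t) :=
  Commute.sum_right _ _ _ fun m _ => Commute.smul_right (by
    have := hz.pow_right m
    rw [← map_pow, h.pow, map_nsmul, ← Nat.cast_smul_eq_nsmul K] at this
    have := this.smul_right (m.factorial : K)⁻¹
    rwa [inv_smul_smul₀ (Nat.cast_ne_zero.2 m.factorial_ne_zero)] at this) _

theorem cent_pow {z : D.grp K} (h : ∀ g, z * g = g * z) : z ^ D.A.det.natAbs = 1 := by
  have hΓ : (GG D K).Ok := GG_ok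
  have hR := Chev.R_ok D
  have h1 : ∀ g, z * g * z⁻¹ = g := fun g => by rw [h, mul_inv_cancel_right]
  have ht := P011UB.mem_T_of_nm hΓ hR (g := z) (fun u hu => by rwa [h1]) fun u hu => by rwa [h1]
  exact pow_natAbs_eq_one.2 (hΓ.det_chi hR ht fun i =>
    hΓ.chi_eq hR (hR.simple i) ht (c := 1) (h1 _))

theorem cen : CEN := fun D => ⟨D.A.det.natAbs, Int.natAbs_pos.2 det_ne, fun K _ _ z hz => by
  have h1 : ∀ γ, D.IsRt γ → Commute z.1.1 (ct K (D.EE γ 1)) := fun γ r =>
    (Units.mul_inv_eq_iff_eq_mul _).1 (hz _ (gg_e r))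
  have h2 : ∀ g, z * g = g * z := fun ⟨g, hg⟩ => by
    refine Subtype.ext ((Subgroup.closure_le (Subgroup.centralizer {z.1})).2 ?_ hg z.1 rfl)
    rintro g ⟨i, t, h | h⟩ _ rfl
    · exact Units.ext (h ▸ comm_ex (dp_e i) (EE_e i ▸ h1 _ (rt_simple i).1.rt) t :
        Commute z.1.1 g.1)
    · exact Units.ext (h ▸ comm_ex (dp_f i) (EE_f i ▸ h1 _ (rt_simple i).2.1.rt) t :
        Commute z.1.1 g.1)
  exact ⟨h2, cent_pow h2⟩⟩

end Vale.Agent.P011UT5
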